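import Vale.Agent.Lib.P097.helper96.Disc

/-!
# P097: a billiard map preserving `sin δ / a(s)` near the boundary forces a conic

Same setting as `Disc.lean`.  If the billiard map preserves a function of the form
`sin δ / a(s)` (as Joachimsthal's integral of an ellipse) on chords leaving at a small angle,
then the scaled normal field `N = i T / a` is an affine function of the point of the curve,
and the curve lies on a conic.
-/

namespace Vale.Agent.Lib.P097.H96

open Complex ComplexConjugate Topology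

theorem hasDerivAt_re {f : ℝ → ℂ} {f' : ℂ} {x : ℝ} (h : HasDerivAt f f' x) :
    HasDerivAt (fun t => (f t).re) f'.re x :=
  Complex.reCLM.hasFDerivAt.comp_hasDerivAt x h

section

variable {γ T : ℝ → ℂ} {κ : ℝ → ℝ}

/-- Near every parameter value, every chord between two points `γ s`, `γ t`, `s < t`, is a
billiard segment leaving at a small angle; the tangent turns to the left. -/
theorem window (hγ : ∀ s, HasDerivAt γ (T s) s) (hT1 : ∀ s, ‖T s‖ = 1)
    (hT : ∀ s, HasDerivAt T (κ s * I * T s) s) (hκ : ∀ s, 0 < κ s)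
    {η : ℝ} (hη : 0 < η) (s₀ : ℝ) :
    ∃ ε : ℝ, 0 < ε ∧ ∀ s t : ℝ, s₀ - ε < s → s < t → t < s₀ + ε →
      0 < (T t * conj (T s)).im ∧
      ∃ δ δ' ℓ : ℝ, 0 < δ ∧ δ < η ∧ 0 < δ' ∧ δ' < Real.pi ∧ 0 < ℓ ∧
        γ t = γ s + ℓ * (T s * exp (δ * I)) ∧
        T s * exp (δ * I) = T t * exp (-(δ' * I)) ∧
        Real.sin δ * ℓ = ((γ t - γ s) * conj (T s)).im ∧
        Real.sin δ' * ℓ = -((γ t - γ s) * conj (T t)).im := by
  -- continuity of `arg` at `1`
  have hcont := Complex.continuousAt_arg Complex.one_mem_slitPlane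
  rw [Metric.continuousAt_iff] at hcont
  obtain ⟨ρ₀, hρ₀, harg⟩ := hcont η hη
  set ρ : ℝ := min ρ₀ 1 / 2 with hρdef
  have hρ : 0 < ρ := by
    rw [hρdef]
    have : 0 < min ρ₀ 1 := lt_min hρ₀ one_pos
    linarith
  have hρ1 : ρ ≤ 1 / 2 := by
    rw [hρdef]
    have : min ρ₀ 1 ≤ 1 := min_le_right _ _
    linarith
  have hρ0 : ρ < ρ₀ := by
    rw [hρdef]
    have : min ρ₀ 1 ≤ ρ₀ := min_le_left _ _
    have : 0 < min ρ₀ 1 := lt_min hρ₀ one_pos
    linarith
  -- continuity of `T` at `s₀`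
  have hTc := (hT s₀).continuousAt
  rw [Metric.continuousAt_iff] at hTc
  obtain ⟨ε, hε, hTε⟩ := hTc (ρ / 2) (by linarith)
  refine ⟨ε, hε, ?_⟩
  have hnear : ∀ τ : ℝ, s₀ - ε < τ → τ < s₀ + ε → ‖T τ - T s₀‖ < ρ / 2 := by
    intro τ h1 h2
    have : dist τ s₀ < ε := by
      rw [Real.dist_eq, abs_lt]
      constructor <;> linarith
    have := hTε this
    rwa [dist_eq_norm] at this
  have hdiff : ∀ τ σ : ℝ, s₀ - ε < τ → τ < s₀ + ε → s₀ - ε < σ → σ < s₀ + ε →
      ‖T τ - T σ‖ < ρ := by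
    intro τ σ h1 h2 h3 h4
    have e1 := hnear τ h1 h2
    have e2 := hnear σ h3 h4
    have : T τ - T σ = (T τ - T s₀) - (T σ - T s₀) := by ring
    rw [this]
    calc ‖(T τ - T s₀) - (T σ - T s₀)‖ ≤ ‖T τ - T s₀‖ + ‖T σ - T s₀‖ := norm_sub_le _ _
      _ < ρ := by linarith
  have hclose : ∀ τ σ : ℝ, s₀ - ε < τ → τ < s₀ + ε → s₀ - ε < σ → σ < s₀ + ε →
      ‖T τ * conj (T σ) - 1‖ < ρ := by
    intro τ σ h1 h2 h3 h4
    have : T τ * conj (T σ) - 1 = (T τ - T σ) * conj (T σ) := by
      rw [sub_mul, mul_conj_one hT1 σ]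
    rw [this, norm_mul, RCLike.norm_conj, hT1 σ, mul_one]
    exact hdiff τ σ h1 h2 h3 h4
  have hre : ∀ τ σ : ℝ, s₀ - ε < τ → τ < s₀ + ε → s₀ - ε < σ → σ < s₀ + ε →
      0 < (T τ * conj (T σ)).re := by
    intro τ σ h1 h2 h3 h4
    have e1 := hclose τ σ h1 h2 h3 h4
    have e2 : |(T τ * conj (T σ) - 1).re| ≤ ‖T τ * conj (T σ) - 1‖ := Complex.abs_re_le_norm _
    rw [Complex.sub_re, Complex.one_re] at e2
    have e3 := abs_le.1 e2
    linarith [e3.1]
  -- the tangent turns to the left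
  have hfpos : ∀ σ τ : ℝ, s₀ - ε < σ → σ < τ → τ < s₀ + ε →
      0 < (T τ * conj (T σ)).im := by
    intro σ τ h1 h2 h3
    have key := lt_of_deriv_pos (f := fun x => (T x * conj (T σ)).im)
      (f' := fun x => κ x * (T x * conj (T σ)).re) h2
      (by
        intro x _
        have := hasDerivAt_im ((hT x).mul_const (conj (T σ)))
        rwa [im_kappa] at this)
      (by
        intro x hx
        exact mul_pos (hκ x) (hre x σ (by linarith [hx.1]) (by linarith [hx.2]) h1
          (by linarith)))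
    have h0 : (T σ * conj (T σ)).im = 0 := by rw [mul_conj_one hT1 σ]; simp
    simpa [h0] using key
  intro s t hs hst ht
  have hts : 0 < t - s := by linarith
  set z : ℂ := (γ t - γ s) * conj (T s) with hz
  set w : ℂ := (γ t - γ s) * conj (T t) with hw
  -- imaginary parts
  have hz_im : 0 < z.im := by
    have key := lt_of_deriv_pos (f := fun x => ((γ x - γ s) * conj (T s)).im)
      (f' := fun x => (T x * conj (T s)).im) hst
      (by
        intro x _
        have := hasDerivAt_im (((hγ x).sub_const (γ s)).mul_const (conj (T s)))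
        exact this)
      (by
        intro x hx
        exact hfpos s x hs hx.1 (by linarith [hx.2]))
    have h0 : ((γ s - γ s) * conj (T s)).im = 0 := by simp
    have key' : ((γ s - γ s) * conj (T s)).im < ((γ t - γ s) * conj (T s)).im := key
    rw [h0] at key'
    exact key'
  have hw_im : w.im < 0 := by
    have key := lt_of_deriv_pos (f := fun x => ((γ t - γ x) * conj (T t)).im)
      (f' := fun x => (T t * conj (T x)).im) hst
      (by
        intro x _
        have h1 := hasDerivAt_im (((hγ x).const_sub (γ t)).mul_const (conj (T t)))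
        have h2 : (-T x * conj (T t)).im = (T t * conj (T x)).im := by
          have : -T x * conj (T t) = -(conj (T t * conj (T x))) := by
            rw [map_mul, Complex.conj_conj]; ring
          rw [this, Complex.neg_im, Complex.conj_im, neg_neg]
        rwa [h2] at h1)
      (by
        intro x hx
        exact hfpos x t (by linarith [hx.1]) hx.2 ht)
    have h0 : ((γ t - γ t) * conj (T t)).im = 0 := by simp
    have key' : ((γ t - γ s) * conj (T t)).im < ((γ t - γ t) * conj (T t)).im := key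
    rw [h0] at key'
    exact key'
  have hz0 : z ≠ 0 := by
    intro h
    rw [h] at hz_im
    simp at hz_im
  -- `z` is close to `t - s`
  have hz_close : ‖z - ((t - s : ℝ) : ℂ)‖ ≤ ρ * (t - s) := by
    have hder : ∀ x ∈ Set.Icc s t, HasDerivWithinAt (fun x : ℝ => γ x - (x : ℂ) * T s)
        (T x - T s) (Set.Icc s t) x := by
      intro x _
      have h1 : HasDerivAt (fun x : ℝ => ((x : ℝ) : ℂ)) 1 x := by
        simpa using (hasDerivAt_id x).ofReal_comp
      have h2 := (hγ x).sub (h1.mul_const (T s))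
      rw [one_mul] at h2
      exact h2.hasDerivWithinAt
    have hbd : ∀ x ∈ Set.Icc s t, ‖T x - T s‖ ≤ ρ := by
      intro x hx
      exact (hdiff x s (by linarith [hx.1]) (by linarith [hx.2]) hs (by linarith)).le
    have hmv := Convex.norm_image_sub_le_of_norm_hasDerivWithin_le hder hbd (convex_Icc s t)
      (Set.left_mem_Icc.2 hst.le) (Set.right_mem_Icc.2 hst.le)
    have e1 : z - ((t - s : ℝ) : ℂ)
        = ((γ t - (t : ℂ) * T s) - (γ s - (s : ℂ) * T s)) * conj (T s) := by
      have := mul_conj_one hT1 s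
      rw [hz]
      push_cast
      linear_combination ((t : ℂ) - s) * this
    rw [e1, norm_mul, RCLike.norm_conj, hT1 s, mul_one]
    have e2 : ‖t - s‖ = t - s := by
      rw [Real.norm_eq_abs, abs_of_pos hts]
    rw [e2] at hmv
    exact hmv
  -- the angle at `s`
  have hargz : arg z < η := by
    have hu : arg (((t - s)⁻¹ : ℝ) * z) = arg z := Complex.arg_real_mul z (inv_pos.2 hts)
    have hdist : dist ((((t - s)⁻¹ : ℝ) : ℂ) * z) 1 < ρ₀ := by
      rw [dist_eq_norm]
      have e1 : (((t - s)⁻¹ : ℝ) : ℂ) * z - 1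
          = (((t - s)⁻¹ : ℝ) : ℂ) * (z - ((t - s : ℝ) : ℂ)) := by
        have hne : ((t - s : ℝ) : ℂ) ≠ 0 := by
          exact_mod_cast hts.ne'
        push_cast
        push_cast at hne
        field_simp
      rw [e1, norm_mul, Complex.norm_real, Real.norm_eq_abs, abs_of_pos (inv_pos.2 hts)]
      calc (t - s)⁻¹ * ‖z - ((t - s : ℝ) : ℂ)‖ ≤ (t - s)⁻¹ * (ρ * (t - s)) :=
            mul_le_mul_of_nonneg_left hz_close (inv_pos.2 hts).le
        _ = ρ := by field_simp
        _ < ρ₀ := hρ0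
    have := harg hdist
    rw [hu, Complex.arg_one, Real.dist_eq, sub_zero] at this
    exact (abs_lt.1 this).2
  have hargz_pos : 0 < arg z := by
    rcases (Complex.arg_nonneg_iff.2 hz_im.le).lt_or_eq with h | h
    · exact h
    · exfalso
      have := (Complex.arg_eq_zero_iff.1 h.symm).2
      linarith
  have hargw_neg : arg w < 0 := Complex.arg_neg_iff.2 hw_im
  have hnorm : ‖w‖ = ‖z‖ := by
    rw [hw, hz, norm_mul, norm_mul, RCLike.norm_conj, RCLike.norm_conj, hT1, hT1]
  have hzpos : 0 < ‖z‖ := norm_pos_iff.2 hz0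
  -- the billiard relation
  have eq1 : γ t = γ s + (‖z‖ : ℂ) * (T s * exp (arg z * I)) := by
    have e : (‖z‖ : ℂ) * (T s * exp (arg z * I)) = T s * z := by
      rw [← Complex.norm_mul_exp_arg_mul_I z]
      simp only [Complex.norm_mul, Complex.norm_exp_ofReal_mul_I, mul_one, Complex.norm_real]
      have hh : arg ((‖z‖ : ℂ) * exp (arg z * I)) = arg z := by
        rw [Complex.norm_mul_exp_arg_mul_I]
      rw [Real.norm_eq_abs, abs_of_nonneg (norm_nonneg z), hh]
      ring
    rw [e, hz]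
    have := mul_conj_one hT1 s
    linear_combination (-(γ t) + γ s) * this
  have eq2 : T s * exp (arg z * I) = T t * exp (-(((-arg w : ℝ) : ℂ) * I)) := by
    have ez : (‖z‖ : ℂ) * (T s * exp (arg z * I)) = γ t - γ s := by
      rw [eq1]; ring
    have ew : (‖z‖ : ℂ) * (T t * exp (-(((-arg w : ℝ) : ℂ) * I))) = γ t - γ s := by
      have e : -(((-arg w : ℝ) : ℂ) * I) = (arg w : ℂ) * I := by
        push_cast; ring
      rw [e, ← hnorm]
      have e' : (‖w‖ : ℂ) * (T t * exp (arg w * I)) = T t * ((‖w‖ : ℂ) * exp (arg w * I)) := by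
        ring
      rw [e', Complex.norm_mul_exp_arg_mul_I, hw]
      have := mul_conj_one hT1 t
      linear_combination (γ t - γ s) * this
    have hne : (‖z‖ : ℂ) ≠ 0 := by
      exact_mod_cast hzpos.ne'
    exact mul_left_cancel₀ hne (ez.trans ew.symm)
  refine ⟨hfpos s t hs hst ht, arg z, -arg w, ‖z‖, hargz_pos, hargz, by linarith,
    by linarith [Complex.neg_pi_lt_arg w], hzpos, eq1, eq2, ?_, ?_⟩
  · rw [Complex.sin_arg]
    field_simp
  · rw [Real.sin_neg, Complex.sin_arg, hnorm]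
    field_simp

/-- dual basis identity in the plane -/
theorem dual_id (X T₀ T₁ : ℂ) :
    X * (((T₁ * conj T₀).im : ℝ) : ℂ)
      = I * ((((T₁ * conj X).re : ℝ) : ℂ) * T₀ - (((T₀ * conj X).re : ℝ) : ℂ) * T₁) := by
  apply Complex.ext <;> simp <;> ring

/-- A normal field `N` along a curve with `⟨γ t - γ s, N s + N t⟩ = 0` for all pairs of an
interval is an affine function of the point, with symmetric linear part. -/
theorem affine_rep {γ T N Nd : ℝ → ℂ} {l r : ℝ}
    (hγ : ∀ s, HasDerivAt γ (T s) s) (hN : ∀ s, HasDerivAt N (Nd s) s)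
    (hperp : ∀ s, (T s * conj (N s)).re = 0)
    (hR : ∀ s t, l < s → s < r → l < t → t < r →
      ((γ t - γ s) * conj (N s + N t)).re = 0)
    {t₀ t₁ : ℝ} (h0 : l < t₀) (h0' : t₀ < r) (h1 : l < t₁) (h1' : t₁ < r)
    (hD : (T t₁ * conj (T t₀)).im ≠ 0) :
    ∃ (α : ℝ) (β b : ℂ), ∀ s, l < s → s < r → N s = α * γ s + β * conj (γ s) + b := by
  -- first derivative
  have hD1 : ∀ s t, l < s → s < r → l < t → t < r →
      (T t * conj (N s)).re + ((γ t - γ s) * conj (Nd t)).re = 0 := by
    intro s t hs hs' ht ht'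
    have hder : HasDerivAt (fun x => ((γ x - γ s) * conj (N s + N x)).re)
        ((T t * conj (N s + N t) + (γ t - γ s) * conj (Nd t)).re) t :=
      hasDerivAt_re (((hγ t).sub_const (γ s)).mul (hasDerivAt_conj ((hN t).const_add (N s))))
    have hev : (fun x => ((γ x - γ s) * conj (N s + N x)).re) =ᶠ[𝓝 t] fun _ => 0 := by
      filter_upwards [Ioo_mem_nhds ht ht'] with x hx
      exact hR s x hs hs' hx.1 hx.2
    have h := hder.unique ((hasDerivAt_const t (0 : ℝ)).congr_of_eventuallyEq hev)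
    have hp := hperp t
    simp only [map_add, mul_add, Complex.add_re] at h
    linarith
  -- second derivative
  have hD2 : (T t₁ * conj (Nd t₀)).re - (T t₀ * conj (Nd t₁)).re = 0 := by
    have hder : HasDerivAt (fun x => (T t₁ * conj (N x)).re + ((γ t₁ - γ x) * conj (Nd t₁)).re)
        ((T t₁ * conj (Nd t₀)).re + ((-T t₀) * conj (Nd t₁)).re) t₀ :=
      (hasDerivAt_re ((hasDerivAt_conj (hN t₀)).const_mul (T t₁))).add
        (hasDerivAt_re (((hγ t₀).const_sub (γ t₁)).mul_const (conj (Nd t₁))))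
    have hev : (fun x => (T t₁ * conj (N x)).re + ((γ t₁ - γ x) * conj (Nd t₁)).re)
        =ᶠ[𝓝 t₀] fun _ => 0 := by
      filter_upwards [Ioo_mem_nhds h0 h0'] with x hx
      exact hD1 x t₁ hx.1 hx.2 h1 h1'
    have h := hder.unique ((hasDerivAt_const t₀ (0 : ℝ)).congr_of_eventuallyEq hev)
    simp only [neg_mul, Complex.neg_re] at h
    linarith
  set D : ℝ := (T t₁ * conj (T t₀)).im with hDdef
  have hDne : (D : ℂ) ≠ 0 := by
    exact_mod_cast hD
  set Y : ℂ := conj (Nd t₁) * T t₀ - conj (Nd t₀) * T t₁ with hY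
  set α' : ℂ := I * Y / (2 * (D : ℂ)) with hα'
  set β : ℂ := I * (Nd t₁ * T t₀ - Nd t₀ * T t₁) / (2 * (D : ℂ)) with hβ
  set g₀ : ℝ := (γ t₀ * conj (Nd t₀)).re with hg₀
  set g₁ : ℝ := (γ t₁ * conj (Nd t₁)).re with hg₁
  set b : ℂ := I * ((g₀ : ℂ) * T t₁ - (g₁ : ℂ) * T t₀) / (D : ℂ) with hb
  have hYre : Y.re = 0 := by
    have e1 : (conj (Nd t₁) * T t₀).re = (T t₀ * conj (Nd t₁)).re := by rw [mul_comm]
    have e2 : (conj (Nd t₀) * T t₁).re = (T t₁ * conj (Nd t₀)).re := by rw [mul_comm]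
    rw [hY, Complex.sub_re, e1, e2]
    linarith
  have hαim : α'.im = 0 := by
    have e : α' = (((1 / (2 * D) : ℝ)) : ℂ) * (I * Y) := by
      rw [hα']
      push_cast
      field_simp
    rw [e, Complex.im_ofReal_mul, Complex.I_mul_im, hYre, mul_zero]
  have hαre : ((α'.re : ℝ) : ℂ) = α' := by
    apply Complex.ext
    · simp
    · simp [hαim]
  refine ⟨α'.re, β, b, fun s hs hs' => ?_⟩
  have hrep := dual_id (N s) (T t₀) (T t₁)
  have e₀ : (((T t₀ * conj (N s)).re : ℝ) : ℂ)
      = (γ s * conj (Nd t₀) + conj (γ s) * Nd t₀) / 2 - (g₀ : ℂ) := by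
    have h := hD1 s t₀ hs hs' h0 h0'
    have h' : (T t₀ * conj (N s)).re = (γ s * conj (Nd t₀)).re - g₀ := by
      rw [hg₀]
      simp only [sub_mul, Complex.sub_re] at h
      linarith
    rw [h']
    push_cast
    rw [Complex.re_eq_add_conj]
    simp only [map_mul, Complex.conj_conj]
  have e₁ : (((T t₁ * conj (N s)).re : ℝ) : ℂ)
      = (γ s * conj (Nd t₁) + conj (γ s) * Nd t₁) / 2 - (g₁ : ℂ) := by
    have h := hD1 s t₁ hs hs' h1 h1'
    have h' : (T t₁ * conj (N s)).re = (γ s * conj (Nd t₁)).re - g₁ := by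
      rw [hg₁]
      simp only [sub_mul, Complex.sub_re] at h
      linarith
    rw [h']
    push_cast
    rw [Complex.re_eq_add_conj]
    simp only [map_mul, Complex.conj_conj]
  rw [e₀, e₁] at hrep
  have key : N s * (D : ℂ) = (α' * γ s + β * conj (γ s) + b) * (D : ℂ) := by
    rw [hrep, hα', hβ, hb, hY]
    field_simp
    ring
  rw [hαre]
  exact mul_right_cancel₀ hDne key

theorem re_aux (c T : ℂ) (a : ℝ) : (c * (-I * conj T / (a : ℂ))).re = (c * conj T).im / a := by
  have : c * (-I * conj T / (a : ℂ)) = (-I * (c * conj T)) / (a : ℂ) := by ring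
  rw [this, Complex.div_ofReal_re]
  simp

/-- Local form: near every point the scaled normal `i T / a` is an affine function of the
point of the curve. -/
theorem local_rep (hγ : ∀ s, HasDerivAt γ (T s) s) (hT1 : ∀ s, ‖T s‖ = 1)
    (hT : ∀ s, HasDerivAt T (κ s * I * T s) s) (hκ : ∀ s, 0 < κ s)
    {a a' : ℝ → ℝ} (ha : ∀ s, 0 < a s) (ha' : ∀ s, HasDerivAt a (a' s) s)
    {η : ℝ} (hη : 0 < η)
    (hJ : ∀ s s' δ δ' ℓ : ℝ, 0 < δ → δ < η → 0 < δ' → δ' < Real.pi → 0 < ℓ →
      γ s' = γ s + ℓ * (T s * exp (δ * I)) →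
      T s * exp (δ * I) = T s' * exp (-(δ' * I)) →
      Real.sin δ' * a s = Real.sin δ * a s') (s₀ : ℝ) :
    ∃ ε : ℝ, 0 < ε ∧ ∃ (α : ℝ) (β b : ℂ), ∀ s, s₀ - ε < s → s < s₀ + ε →
      I * T s / (a s : ℂ) = α * γ s + β * conj (γ s) + b := by
  obtain ⟨ε, hε, hw⟩ := window hγ hT1 hT hκ hη s₀
  refine ⟨ε, hε, ?_⟩
  have hN : ∀ s, HasDerivAt (fun x => I * T x / (a x : ℂ))
      ((I * (κ s * I * T s) * (a s : ℂ) - I * T s * (a' s : ℂ)) / (a s : ℂ) ^ 2) s := by
    intro s
    have hac : HasDerivAt (fun x => ((a x : ℝ) : ℂ)) ((a' s : ℝ) : ℂ) s := (ha' s).ofReal_comp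
    have hne : ((a s : ℝ) : ℂ) ≠ 0 := by
      exact_mod_cast (ha s).ne'
    exact ((hT s).const_mul I).div hac hne
  have hperp : ∀ s, (T s * conj (I * T s / (a s : ℂ))).re = 0 := by
    intro s
    have e : T s * conj (I * T s / (a s : ℂ)) = -I / (a s : ℂ) := by
      rw [map_div₀, map_mul, Complex.conj_I, Complex.conj_ofReal]
      have h1 := mul_conj_one hT1 s
      have h2 : T s * (-I * conj (T s) / (a s : ℂ)) = -I * (T s * conj (T s)) / (a s : ℂ) := by
        ring
      rw [h2, h1, mul_one]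
    rw [e, Complex.div_ofReal_re]
    simp
  have hlt : ∀ s t, s₀ - ε < s → s < t → t < s₀ + ε →
      ((γ t - γ s) * conj (I * T s / (a s : ℂ) + I * T t / (a t : ℂ))).re = 0 := by
    intro s t hs hst ht
    obtain ⟨_, δ, δ', ℓ, h1, h2, h3, h4, h5, h6, h7, h8, h9⟩ := hw s t hs hst ht
    have hj := hJ s t δ δ' ℓ h1 h2 h3 h4 h5 h6 h7
    have hj' : ((γ t - γ s) * conj (T s)).im * a t + ((γ t - γ s) * conj (T t)).im * a s = 0 := by
      have h10 : Real.sin δ' * ℓ * a s = Real.sin δ * ℓ * a t := by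
        linear_combination ℓ * hj
      rw [h8, h9] at h10
      linarith
    have e : ((γ t - γ s) * conj (I * T s / (a s : ℂ) + I * T t / (a t : ℂ))).re
        = ((γ t - γ s) * conj (T s)).im / a s + ((γ t - γ s) * conj (T t)).im / a t := by
      simp only [map_add, map_div₀, map_mul, Complex.conj_I, Complex.conj_ofReal, mul_add,
        Complex.add_re]
      rw [re_aux, re_aux]
    rw [e]
    have hs0 := ha s
    have ht0 := ha t
    field_simp
    linarith
  have hrel : ∀ s t, s₀ - ε < s → s < s₀ + ε → s₀ - ε < t → t < s₀ + ε →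
      ((γ t - γ s) * conj (I * T s / (a s : ℂ) + I * T t / (a t : ℂ))).re = 0 := by
    intro s t hs hs' ht ht'
    rcases lt_trichotomy s t with h | h | h
    · exact hlt s t hs h ht'
    · subst h
      simp
    · have h1 := hlt t s ht h hs'
      have e : (γ t - γ s) * conj (I * T s / (a s : ℂ) + I * T t / (a t : ℂ))
          = -((γ s - γ t) * conj (I * T t / (a t : ℂ) + I * T s / (a s : ℂ))) := by
        rw [add_comm]
        ring
      rw [e, Complex.neg_re, h1, neg_zero]
  have hD := (hw (s₀ - ε / 2) (s₀ + ε / 2) (by linarith) (by linarith) (by linarith)).1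
  exact affine_rep (N := fun x => I * T x / (a x : ℂ)) hγ hN hperp hrel
    (by linarith) (by linarith) (by linarith) (by linarith) hD.ne'

/-- Two affine representations which agree near a point have the same coefficients. -/
theorem rep_unique (hγ : ∀ s, HasDerivAt γ (T s) s) (hT1 : ∀ s, ‖T s‖ = 1)
    (hT : ∀ s, HasDerivAt T (κ s * I * T s) s) (hκ : ∀ s, 0 < κ s)
    {N : ℝ → ℂ} {α α' : ℝ} {β β' b b' : ℂ} {y : ℝ}
    (h : ∀ᶠ s in 𝓝 y, N s = α * γ s + β * conj (γ s) + b)
    (h' : ∀ᶠ s in 𝓝 y, N s = α' * γ s + β' * conj (γ s) + b') :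
    α = α' ∧ β = β' ∧ b = b' := by
  have hFev : (fun s => ((α : ℂ) - α') * γ s + (β - β') * conj (γ s) + (b - b'))
      =ᶠ[𝓝 y] fun _ => 0 := by
    filter_upwards [h, h'] with s e e'
    linear_combination e' - e
  have hF : ∀ s, HasDerivAt (fun s => ((α : ℂ) - α') * γ s + (β - β') * conj (γ s) + (b - b'))
      (((α : ℂ) - α') * T s + (β - β') * conj (T s)) s := fun s =>
    (((hγ s).const_mul _).add ((hasDerivAt_conj (hγ s)).const_mul _)).add_const _
  have hGev : (fun s => ((α : ℂ) - α') * T s + (β - β') * conj (T s)) =ᶠ[𝓝 y] fun _ => 0 := by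
    have h1 := hFev.deriv
    filter_upwards [h1] with s hs
    rw [(hF s).deriv] at hs
    simpa using hs
  have hG : HasDerivAt (fun s => ((α : ℂ) - α') * T s + (β - β') * conj (T s))
      (((α : ℂ) - α') * (κ y * I * T y) + (β - β') * conj (κ y * I * T y)) y :=
    ((hT y).const_mul _).add ((hasDerivAt_conj (hT y)).const_mul _)
  have E1 : ((α : ℂ) - α') * T y + (β - β') * conj (T y) = 0 := hGev.eq_of_nhds
  have E2' := hG.unique ((hasDerivAt_const y (0 : ℂ)).congr_of_eventuallyEq hGev)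
  simp only [map_mul, Complex.conj_ofReal, Complex.conj_I] at E2'
  have E0 : ((α : ℂ) - α') * γ y + (β - β') * conj (γ y) + (b - b') = 0 := hFev.eq_of_nhds
  have hTne : T y ≠ 0 := by
    intro h0
    have h1 := hT1 y
    rw [h0, norm_zero] at h1
    exact zero_ne_one h1
  have hcTne : conj (T y) ≠ 0 := (map_ne_zero _).2 hTne
  have hκne : ((κ y : ℝ) : ℂ) ≠ 0 := by
    exact_mod_cast (hκ y).ne'
  have E2 : ((α : ℂ) - α') * T y - (β - β') * conj (T y) = 0 := by
    have h1 : ((κ y : ℝ) : ℂ) * I * (((α : ℂ) - α') * T y - (β - β') * conj (T y)) = 0 := by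
      linear_combination E2'
    exact (mul_eq_zero.1 h1).resolve_left (mul_ne_zero hκne Complex.I_ne_zero)
  have hα : ((α : ℂ) - α') = 0 := by
    have h1 : 2 * (((α : ℂ) - α') * T y) = 0 := by
      linear_combination E1 + E2
    have h2 := (mul_eq_zero.1 h1).resolve_left two_ne_zero
    exact (mul_eq_zero.1 h2).resolve_right hTne
  have hβ : β - β' = 0 := by
    rw [hα, zero_mul, zero_add] at E1
    exact (mul_eq_zero.1 E1).resolve_right hcTne
  have hb : b - b' = 0 := by
    rw [hα, hβ, zero_mul, zero_mul, zero_add, zero_add] at E0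
    exact E0
  refine ⟨?_, sub_eq_zero.1 hβ, sub_eq_zero.1 hb⟩
  exact Complex.ofReal_injective (sub_eq_zero.1 hα)

/-- Global form. -/
theorem global_rep (hγ : ∀ s, HasDerivAt γ (T s) s) (hT1 : ∀ s, ‖T s‖ = 1)
    (hT : ∀ s, HasDerivAt T (κ s * I * T s) s) (hκ : ∀ s, 0 < κ s)
    {a a' : ℝ → ℝ} (ha : ∀ s, 0 < a s) (ha' : ∀ s, HasDerivAt a (a' s) s)
    {η : ℝ} (hη : 0 < η)
    (hJ : ∀ s s' δ δ' ℓ : ℝ, 0 < δ → δ < η → 0 < δ' → δ' < Real.pi → 0 < ℓ →
      γ s' = γ s + ℓ * (T s * exp (δ * I)) →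
      T s * exp (δ * I) = T s' * exp (-(δ' * I)) →
      Real.sin δ' * a s = Real.sin δ * a s') :
    ∃ (α : ℝ) (β b : ℂ), ∀ s, I * T s / (a s : ℂ) = α * γ s + β * conj (γ s) + b := by
  have hex : ∀ x : ℝ, ∃ p : ℝ × ℂ × ℂ, ∀ᶠ s in 𝓝 x,
      I * T s / (a s : ℂ) = p.1 * γ s + p.2.1 * conj (γ s) + p.2.2 := by
    intro x
    obtain ⟨ε, hε, α, β, b, h⟩ := local_rep hγ hT1 hT hκ ha ha' hη hJ x
    refine ⟨(α, β, b), ?_⟩
    filter_upwards [Ioo_mem_nhds (show x - ε < x by linarith) (show x < x + ε by linarith)]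
      with s hs
    exact h s hs.1 hs.2
  choose P hP using hex
  have hloc : IsLocallyConstant P := by
    rw [IsLocallyConstant.iff_eventually_eq]
    intro x
    filter_upwards [(hP x).eventually_nhds] with y hy
    obtain ⟨h1, h2, h3⟩ := rep_unique hγ hT1 hT hκ (hP y) hy
    exact Prod.ext h1 (Prod.ext h2 h3)
  refine ⟨(P 0).1, (P 0).2.1, (P 0).2.2, fun s => ?_⟩
  have h1 := (hP s).self_of_nhds
  rw [hloc.apply_eq_of_preconnectedSpace s 0] at h1
  exact h1

/-- The curve lies on a conic whose gradient is the scaled normal field. -/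
theorem on_conic (hγ : ∀ s, HasDerivAt γ (T s) s) (hT1 : ∀ s, ‖T s‖ = 1)
    (hT : ∀ s, HasDerivAt T (κ s * I * T s) s) (hκ : ∀ s, 0 < κ s)
    {a a' : ℝ → ℝ} (ha : ∀ s, 0 < a s) (ha' : ∀ s, HasDerivAt a (a' s) s)
    {η : ℝ} (hη : 0 < η)
    (hJ : ∀ s s' δ δ' ℓ : ℝ, 0 < δ → δ < η → 0 < δ' → δ' < Real.pi → 0 < ℓ →
      γ s' = γ s + ℓ * (T s * exp (δ * I)) →
      T s * exp (δ * I) = T s' * exp (-(δ' * I)) →
      Real.sin δ' * a s = Real.sin δ * a s') :
    ∃ (α : ℝ) (β b : ℂ) (k : ℝ),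
      (∀ s, I * T s / (a s : ℂ) = α * γ s + β * conj (γ s) + b) ∧
      (∀ s, (conj (γ s) * (α * γ s + β * conj (γ s) + 2 * b)).re = k) ∧
      (∀ s, α + (β * conj (T s) ^ 2).re = -(κ s / a s)) := by
  obtain ⟨α, β, b, hrep⟩ := global_rep hγ hT1 hT hκ ha ha' hη hJ
  have hΨ : ∀ s, HasDerivAt
      (fun x => (conj (γ x) * (α * γ x + β * conj (γ x) + 2 * b)).re) 0 s := by
    intro s
    have h1 : HasDerivAt (fun x => (α : ℂ) * γ x + β * conj (γ x) + 2 * b)
        ((α : ℂ) * T s + β * conj (T s)) s :=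
      (((hγ s).const_mul _).add ((hasDerivAt_conj (hγ s)).const_mul _)).add_const _
    have h2 := hasDerivAt_re ((hasDerivAt_conj (hγ s)).mul h1)
    have e : (conj (T s) * (α * γ s + β * conj (γ s) + 2 * b)
        + conj (γ s) * (α * T s + β * conj (T s))).re = 0 := by
      have e1 : conj (T s) * (α * γ s + β * conj (γ s) + 2 * b)
          + conj (γ s) * (α * T s + β * conj (T s))
          = 2 * (conj (T s) * (α * γ s + β * conj (γ s) + b))
            + (conj (conj (T s) * (α * γ s)) - conj (T s) * (α * γ s)) := by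
        simp only [map_mul, Complex.conj_conj, Complex.conj_ofReal]
        ring
      have e2 : conj (T s) * (α * γ s + β * conj (γ s) + b) = I / (a s : ℂ) := by
        rw [← hrep s]
        have h3 := conj_mul_one hT1 s
        have h4 : conj (T s) * (I * T s / (a s : ℂ)) = I * (conj (T s) * T s) / (a s : ℂ) := by
          ring
        rw [h4, h3, mul_one]
      have e3 : (2 : ℂ) * (I / (a s : ℂ)) = ((2 / a s : ℝ) : ℂ) * I := by
        push_cast
        ring
      rw [e1, e2, Complex.add_re, Complex.sub_re, Complex.conj_re, sub_self, add_zero, e3,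
        Complex.re_ofReal_mul, Complex.I_re, mul_zero]
    rwa [e] at h2
  refine ⟨α, β, b, (conj (γ 0) * (α * γ 0 + β * conj (γ 0) + 2 * b)).re, hrep, fun s => ?_,
    fun s => ?_⟩
  · exact is_const_of_deriv_eq_zero (fun x => (hΨ x).differentiableAt) (fun x => (hΨ x).deriv) s 0
  · have hne : ((a s : ℝ) : ℂ) ≠ 0 := by
      exact_mod_cast (ha s).ne'
    have hNd : HasDerivAt (fun x => I * T x / (a x : ℂ))
        ((I * (κ s * I * T s) * (a s : ℂ) - I * T s * (a' s : ℂ)) / (a s : ℂ) ^ 2) s := by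
      have hac : HasDerivAt (fun x => ((a x : ℝ) : ℂ)) ((a' s : ℝ) : ℂ) s := (ha' s).ofReal_comp
      exact ((hT s).const_mul I).div hac hne
    have hrhs : HasDerivAt (fun x => (α : ℂ) * γ x + β * conj (γ x) + b)
        ((α : ℂ) * T s + β * conj (T s)) s :=
      (((hγ s).const_mul _).add ((hasDerivAt_conj (hγ s)).const_mul _)).add_const _
    have hfun : (fun x => I * T x / (a x : ℂ)) = fun x => (α : ℂ) * γ x + β * conj (γ x) + b :=
      funext hrep
    rw [hfun] at hNd
    have huniq := hrhs.unique hNd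
    have h1 := mul_conj_one hT1 s
    have e3 : ((α : ℂ) * T s + β * conj (T s)) * conj (T s) = (α : ℂ) + β * conj (T s) ^ 2 := by
      linear_combination (α : ℂ) * h1
    have e4 : (I * (κ s * I * T s) * (a s : ℂ) - I * T s * (a' s : ℂ)) / (a s : ℂ) ^ 2
        * conj (T s) = ((-(κ s / a s) : ℝ) : ℂ) + ((-(a' s / (a s) ^ 2) : ℝ) : ℂ) * I := by
      have h5 : (I * (κ s * I * T s) * (a s : ℂ) - I * T s * (a' s : ℂ)) / (a s : ℂ) ^ 2
          * conj (T s)
          = (I * ((κ s : ℂ) * I) * (a s : ℂ) - I * (a' s : ℂ)) * (T s * conj (T s))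
            / (a s : ℂ) ^ 2 := by ring
      have hI : I * ((κ s : ℂ) * I) = -(κ s : ℂ) := by
        linear_combination (κ s : ℂ) * Complex.I_mul_I
      rw [h5, h1, mul_one, hI]
      push_cast
      field_simp
      ring
    have e5 : ((α : ℂ) + β * conj (T s) ^ 2).re = α + (β * conj (T s) ^ 2).re := by
      simp
    have e6 : (((-(κ s / a s) : ℝ) : ℂ) + ((-(a' s / (a s) ^ 2) : ℝ) : ℂ) * I).re
        = -(κ s / a s) := by
      rw [Complex.add_re, Complex.ofReal_re, Complex.re_ofReal_mul, Complex.I_re, mul_zero,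
        add_zero]
    rw [← e5, ← e3, huniq, e4, e6]

/-- For a closed curve the conic is an ellipse: its quadratic part is definite. -/
theorem definite (hT1 : ∀ s, ‖T s‖ = 1)
    (hT : ∀ s, HasDerivAt T (κ s * I * T s) s) (hκ : ∀ s, 0 < κ s)
    {a : ℝ → ℝ} (ha : ∀ s, 0 < a s) {α : ℝ} {β : ℂ}
    (hK : ∀ s, α + (β * conj (T s) ^ 2).re = -(κ s / a s))
    {L : ℝ} (hL : 0 < L) (hper : ∀ s, T (s + L) = T s) : α < 0 ∧ ‖β‖ < -α := by
  have hneg : ∀ s, α + (β * conj (T s) ^ 2).re < 0 := by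
    intro s
    rw [hK s]
    have := div_pos (hκ s) (ha s)
    linarith
  by_cases hβ : β = 0
  · have h1 := hneg 0
    rw [hβ] at h1
    simp at h1
    rw [hβ, norm_zero]
    exact ⟨h1, by linarith⟩
  · have hnβ : 0 < ‖β‖ := norm_pos_iff.2 hβ
    obtain ⟨u, hu⟩ : ∃ u : ℂ, u ^ 2 = β / (‖β‖ : ℂ) :=
      ⟨(β / (‖β‖ : ℂ)) ^ (((2 : ℕ) : ℂ)⁻¹), Complex.cpow_nat_inv_pow _ two_ne_zero⟩
    have hun : ‖u‖ = 1 := by
      have h1 : ‖u‖ ^ 2 = 1 := by
        rw [← norm_pow, hu, norm_div, Complex.norm_real, Real.norm_eq_abs, abs_of_pos hnβ,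
          div_self hnβ.ne']
      exact (pow_eq_one_iff_of_nonneg (norm_nonneg u) two_ne_zero).1 h1
    obtain ⟨s, hs⟩ : ∃ s, (T s * conj u).im = 0 := by
      by_contra hne
      push Not at hne
      have hcont : Continuous (fun s => (T s * conj u).im) := by
        have hTc : Continuous T := continuous_iff_continuousAt.2 (fun s => (hT s).continuousAt)
        exact Complex.continuous_im.comp (hTc.mul continuous_const)
      have hh : ∀ s, HasDerivAt (fun x => (T x * conj u).re)
          (-(κ s * (T s * conj u).im)) s := by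
        intro s
        have h1 := hasDerivAt_re ((hT s).mul_const (conj u))
        have e : ((κ s : ℂ) * I * T s * conj u).re = -(κ s * (T s * conj u).im) := by
          have h2 : (κ s : ℂ) * I * T s * conj u = (κ s : ℂ) * (I * (T s * conj u)) := by ring
          rw [h2, Complex.re_ofReal_mul, Complex.I_mul_re]
          ring
        rwa [e] at h1
      have hperh : (T L * conj u).re = (T 0 * conj u).re := by
        rw [← hper 0, zero_add]
      by_cases hpos : ∀ s, 0 < (T s * conj u).im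
      · have h1 := lt_of_deriv_pos (f := fun x => -(T x * conj u).re)
          (f' := fun x => κ x * (T x * conj u).im) hL
          (fun x _ => by
            have h2 := (hh x).neg
            rw [neg_neg] at h2
            exact h2)
          (fun x _ => mul_pos (hκ x) (hpos x))
        have h1' : -(T 0 * conj u).re < -(T L * conj u).re := h1
        rw [hperh] at h1'
        exact lt_irrefl _ h1'
      · push Not at hpos
        obtain ⟨x, hx⟩ := hpos
        have hx' : (T x * conj u).im < 0 := lt_of_le_of_ne hx (hne x)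
        have hall : ∀ s, (T s * conj u).im < 0 := by
          intro s
          by_contra hs
          push Not at hs
          have h0 : (0 : ℝ) ∈ Set.range (fun s => (T s * conj u).im) :=
            mem_range_of_exists_le_of_exists_ge hcont ⟨x, hx'.le⟩ ⟨s, hs⟩
          obtain ⟨c, hc⟩ := h0
          exact hne c hc
        have h1 := lt_of_deriv_pos (f := fun x => (T x * conj u).re)
          (f' := fun x => -(κ x * (T x * conj u).im)) hL
          (fun x _ => hh x)
          (fun x _ => by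
            have := mul_neg_of_pos_of_neg (hκ x) (hall x)
            linarith)
        have h1' : (T 0 * conj u).re < (T L * conj u).re := h1
        rw [hperh] at h1'
        exact lt_irrefl _ h1'
    have hsq : conj (T s) ^ 2 = conj u ^ 2 := by
      have hvn : ‖T s * conj u‖ = 1 := by
        rw [norm_mul, RCLike.norm_conj, hT1, hun, mul_one]
      have hvre : T s * conj u = (((T s * conj u).re : ℝ) : ℂ) := by
        apply Complex.ext <;> simp [hs]
      have hv2 : (T s * conj u) ^ 2 = 1 := by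
        have h1 : (T s * conj u).re ^ 2 = 1 := by
          have h2 : ‖T s * conj u‖ ^ 2 = (T s * conj u).re ^ 2 + (T s * conj u).im ^ 2 := by
            rw [← Complex.normSq_eq_norm_sq, Complex.normSq_apply]
            ring
          rw [hvn, hs] at h2
          linarith
        rw [hvre]
        exact_mod_cast h1
      have huu : u * conj u = 1 := by
        rw [Complex.mul_conj, Complex.normSq_eq_norm_sq, hun]
        norm_num
      have hT2 : T s ^ 2 = u ^ 2 := by
        have h3 : T s ^ 2 = (T s * conj u) ^ 2 * u ^ 2 := by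
          linear_combination (-(T s) ^ 2 * (u * conj u + 1)) * huu
        rw [h3, hv2, one_mul]
      rw [← map_pow, ← map_pow, hT2]
    have hval : (β * conj (T s) ^ 2).re = ‖β‖ := by
      rw [hsq, ← map_pow, hu, map_div₀, Complex.conj_ofReal]
      have h1 : β * (conj β / (‖β‖ : ℂ)) = (‖β‖ : ℂ) := by
        rw [mul_div_assoc', Complex.mul_conj, Complex.normSq_eq_norm_sq]
        have hne : ((‖β‖ : ℝ) : ℂ) ≠ 0 := by
          exact_mod_cast hnβ.ne'
        push_cast
        field_simp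
      rw [h1, Complex.ofReal_re]
    have h1 := hneg s
    rw [hval] at h1
    exact ⟨by linarith, by linarith⟩

/-- Main statement: the scaled normal is affine in the point, the curve lies on the conic,
and the conic is an ellipse when the tangent is periodic (closed curve). -/
theorem main (hγ : ∀ s, HasDerivAt γ (T s) s) (hT1 : ∀ s, ‖T s‖ = 1)
    (hT : ∀ s, HasDerivAt T (κ s * I * T s) s) (hκ : ∀ s, 0 < κ s)
    {a a' : ℝ → ℝ} (ha : ∀ s, 0 < a s) (ha' : ∀ s, HasDerivAt a (a' s) s)
    {η : ℝ} (hη : 0 < η)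
    (hJ : ∀ s s' δ δ' ℓ : ℝ, 0 < δ → δ < η → 0 < δ' → δ' < Real.pi → 0 < ℓ →
      γ s' = γ s + ℓ * (T s * exp (δ * I)) →
      T s * exp (δ * I) = T s' * exp (-(δ' * I)) →
      Real.sin δ' * a s = Real.sin δ * a s') :
    ∃ (α : ℝ) (β b : ℂ) (k : ℝ),
      (∀ s, I * T s / (a s : ℂ) = α * γ s + β * conj (γ s) + b) ∧
      (∀ s, α * ‖γ s‖ ^ 2 + (β * conj (γ s) ^ 2).re + 2 * (b * conj (γ s)).re = k) ∧
      (∀ L : ℝ, 0 < L → (∀ s, T (s + L) = T s) → α < 0 ∧ ‖β‖ < -α) := by
  obtain ⟨α, β, b, k, h1, h2, h3⟩ := on_conic hγ hT1 hT hκ ha ha' hη hJ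
  refine ⟨α, β, b, k, h1, fun s => ?_, fun L hL hper => definite hT1 hT hκ ha h3 hL hper⟩
  rw [← h2 s]
  have e : conj (γ s) * (α * γ s + β * conj (γ s) + 2 * b)
      = ((α * ‖γ s‖ ^ 2 : ℝ) : ℂ) + β * conj (γ s) ^ 2 + ((2 : ℝ) : ℂ) * (b * conj (γ s)) := by
    have h4 : γ s * conj (γ s) = ((‖γ s‖ ^ 2 : ℝ) : ℂ) := by
      rw [Complex.mul_conj, Complex.normSq_eq_norm_sq]
    push_cast
    push_cast at h4
    linear_combination (α : ℂ) * h4
  rw [e, Complex.add_re, Complex.add_re, Complex.ofReal_re, Complex.re_ofReal_mul]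

end

end Vale.Agent.Lib.P097.H96
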