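import Mathlib

/-!
# P097: a billiard table whose billiard map preserves the angle near the boundary is a disc

The plane is `ℂ`.  A curve `γ : ℝ → ℂ` with unit tangent `T` and curvature `κ > 0`
(`γ' = T`, `‖T‖ = 1`, `T' = i κ T`).  If every chord which leaves the curve at an angle
`δ ∈ (0, η)` arrives at the same angle, then the curvature is constant and the curve
lies on a circle.
-/

namespace Vale.Agent.Lib.P097.H96

open Complex ComplexConjugate Topology

/-- A real function with positive derivative on the open interval increases strictly. -/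
theorem lt_of_deriv_pos {f f' : ℝ → ℝ} {a b : ℝ} (hab : a < b)
    (hf : ∀ x ∈ Set.Icc a b, HasDerivAt f (f' x) x)
    (hpos : ∀ x ∈ Set.Ioo a b, 0 < f' x) : f a < f b := by
  have hmono : StrictMonoOn f (Set.Icc a b) := by
    apply strictMonoOn_of_deriv_pos (convex_Icc a b)
    · intro x hx
      exact (hf x hx).continuousAt.continuousWithinAt
    · intro x hx
      rw [interior_Icc] at hx
      rw [(hf x (Set.Ioo_subset_Icc_self hx)).deriv]
      exact hpos x hx
  exact hmono (Set.left_mem_Icc.2 hab.le) (Set.right_mem_Icc.2 hab.le) hab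

theorem hasDerivAt_im {f : ℝ → ℂ} {f' : ℂ} {x : ℝ} (h : HasDerivAt f f' x) :
    HasDerivAt (fun t => (f t).im) f'.im x :=
  Complex.imCLM.hasFDerivAt.comp_hasDerivAt x h

theorem hasDerivAt_conj {f : ℝ → ℂ} {f' : ℂ} {x : ℝ} (h : HasDerivAt f f' x) :
    HasDerivAt (fun t => conj (f t)) (conj f') x :=
  h.star

theorem mul_conj_one {T : ℝ → ℂ} (hT1 : ∀ s, ‖T s‖ = 1) (s : ℝ) : T s * conj (T s) = 1 := by
  rw [Complex.mul_conj, Complex.normSq_eq_norm_sq, hT1]
  norm_num

theorem conj_mul_one {T : ℝ → ℂ} (hT1 : ∀ s, ‖T s‖ = 1) (s : ℝ) : conj (T s) * T s = 1 := by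
  rw [mul_comm]
  exact mul_conj_one hT1 s

theorem im_kappa {k : ℝ} (a b : ℂ) : ((k : ℂ) * I * a * b).im = k * (a * b).re := by
  have : (k : ℂ) * I * a * b = (k : ℂ) * (I * (a * b)) := by ring
  rw [this, Complex.im_ofReal_mul, Complex.I_mul_im]

section

variable {γ T : ℝ → ℂ} {κ : ℝ → ℝ}

/-- Near every parameter value, the chord between two nearby points makes equal angles with
the curve at its two ends: in complex terms, `(γ t - γ s) * conj (T t)` is the conjugate of
`(γ t - γ s) * conj (T s)`, and the latter has positive imaginary part. -/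
theorem pair_conj (hγ : ∀ s, HasDerivAt γ (T s) s) (hT1 : ∀ s, ‖T s‖ = 1)
    (hT : ∀ s, HasDerivAt T (κ s * I * T s) s) (hκ : ∀ s, 0 < κ s)
    {η : ℝ} (hη : 0 < η)
    (hbill : ∀ s s' δ δ' ℓ : ℝ, 0 < δ → δ < η → 0 < δ' → δ' < Real.pi → 0 < ℓ →
      γ s' = γ s + ℓ * (T s * exp (δ * I)) →
      T s * exp (δ * I) = T s' * exp (-(δ' * I)) → δ' = δ) (s₀ : ℝ) :
    ∃ ε : ℝ, 0 < ε ∧ ∀ s t : ℝ, s₀ - ε < s → s < t → t < s₀ + ε →
      (γ t - γ s) * conj (T t) = conj ((γ t - γ s) * conj (T s)) ∧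
      0 < ((γ t - γ s) * conj (T s)).im := by
  -- continuity of `arg` at `1`
  have hcont := Complex.continuousAt_arg Complex.one_mem_slitPlane
  rw [Metric.continuousAt_iff] at hcont
  obtain ⟨ρ₀, hρ₀, harg⟩ := hcont η hη
  set ρ : ℝ := min ρ₀ 1 / 2 with hρdef
  have hρ : 0 < ρ := by
    rw [hρdef]
    have : 0 < min ρ₀ 1 := lt_min hρ₀ one_pos
    linarith
  have hρ1 : ρ ≤ 1 / 2 := by
    rw [hρdef]
    have : min ρ₀ 1 ≤ 1 := min_le_right _ _
    linarith
  have hρ0 : ρ < ρ₀ := by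
    rw [hρdef]
    have : min ρ₀ 1 ≤ ρ₀ := min_le_left _ _
    have : 0 < min ρ₀ 1 := lt_min hρ₀ one_pos
    linarith
  -- continuity of `T` at `s₀`
  have hTc := (hT s₀).continuousAt
  rw [Metric.continuousAt_iff] at hTc
  obtain ⟨ε, hε, hTε⟩ := hTc (ρ / 2) (by linarith)
  refine ⟨ε, hε, ?_⟩
  have hnear : ∀ τ : ℝ, s₀ - ε < τ → τ < s₀ + ε → ‖T τ - T s₀‖ < ρ / 2 := by
    intro τ h1 h2
    have : dist τ s₀ < ε := by
      rw [Real.dist_eq, abs_lt]
      constructor <;> linarith
    have := hTε this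
    rwa [dist_eq_norm] at this
  have hdiff : ∀ τ σ : ℝ, s₀ - ε < τ → τ < s₀ + ε → s₀ - ε < σ → σ < s₀ + ε →
      ‖T τ - T σ‖ < ρ := by
    intro τ σ h1 h2 h3 h4
    have e1 := hnear τ h1 h2
    have e2 := hnear σ h3 h4
    have : T τ - T σ = (T τ - T s₀) - (T σ - T s₀) := by ring
    rw [this]
    calc ‖(T τ - T s₀) - (T σ - T s₀)‖ ≤ ‖T τ - T s₀‖ + ‖T σ - T s₀‖ := norm_sub_le _ _
      _ < ρ := by linarith
  have hclose : ∀ τ σ : ℝ, s₀ - ε < τ → τ < s₀ + ε → s₀ - ε < σ → σ < s₀ + ε →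
      ‖T τ * conj (T σ) - 1‖ < ρ := by
    intro τ σ h1 h2 h3 h4
    have : T τ * conj (T σ) - 1 = (T τ - T σ) * conj (T σ) := by
      rw [sub_mul, mul_conj_one hT1 σ]
    rw [this, norm_mul, RCLike.norm_conj, hT1 σ, mul_one]
    exact hdiff τ σ h1 h2 h3 h4
  have hre : ∀ τ σ : ℝ, s₀ - ε < τ → τ < s₀ + ε → s₀ - ε < σ → σ < s₀ + ε →
      0 < (T τ * conj (T σ)).re := by
    intro τ σ h1 h2 h3 h4
    have e1 := hclose τ σ h1 h2 h3 h4
    have e2 : |(T τ * conj (T σ) - 1).re| ≤ ‖T τ * conj (T σ) - 1‖ := Complex.abs_re_le_norm _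
    rw [Complex.sub_re, Complex.one_re] at e2
    have e3 := abs_le.1 e2
    linarith [e3.1]
  -- the tangent turns to the left
  have hfpos : ∀ σ τ : ℝ, s₀ - ε < σ → σ < τ → τ < s₀ + ε →
      0 < (T τ * conj (T σ)).im := by
    intro σ τ h1 h2 h3
    have key := lt_of_deriv_pos (f := fun x => (T x * conj (T σ)).im)
      (f' := fun x => κ x * (T x * conj (T σ)).re) h2
      (by
        intro x _
        have := hasDerivAt_im ((hT x).mul_const (conj (T σ)))
        rwa [im_kappa] at this)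
      (by
        intro x hx
        exact mul_pos (hκ x) (hre x σ (by linarith [hx.1]) (by linarith [hx.2]) h1
          (by linarith)))
    have h0 : (T σ * conj (T σ)).im = 0 := by rw [mul_conj_one hT1 σ]; simp
    simpa [h0] using key
  intro s t hs hst ht
  have hts : 0 < t - s := by linarith
  set z : ℂ := (γ t - γ s) * conj (T s) with hz
  set w : ℂ := (γ t - γ s) * conj (T t) with hw
  -- imaginary parts
  have hz_im : 0 < z.im := by
    have key := lt_of_deriv_pos (f := fun x => ((γ x - γ s) * conj (T s)).im)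
      (f' := fun x => (T x * conj (T s)).im) hst
      (by
        intro x _
        have := hasDerivAt_im (((hγ x).sub_const (γ s)).mul_const (conj (T s)))
        exact this)
      (by
        intro x hx
        exact hfpos s x hs hx.1 (by linarith [hx.2]))
    have h0 : ((γ s - γ s) * conj (T s)).im = 0 := by simp
    have key' : ((γ s - γ s) * conj (T s)).im < ((γ t - γ s) * conj (T s)).im := key
    rw [h0] at key'
    exact key'
  have hw_im : w.im < 0 := by
    have key := lt_of_deriv_pos (f := fun x => ((γ t - γ x) * conj (T t)).im)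
      (f' := fun x => (T t * conj (T x)).im) hst
      (by
        intro x _
        have h1 := hasDerivAt_im (((hγ x).const_sub (γ t)).mul_const (conj (T t)))
        have h2 : (-T x * conj (T t)).im = (T t * conj (T x)).im := by
          have : -T x * conj (T t) = -(conj (T t * conj (T x))) := by
            rw [map_mul, Complex.conj_conj]; ring
          rw [this, Complex.neg_im, Complex.conj_im, neg_neg]
        rwa [h2] at h1)
      (by
        intro x hx
        exact hfpos x t (by linarith [hx.1]) hx.2 ht)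
    have h0 : ((γ t - γ t) * conj (T t)).im = 0 := by simp
    have key' : ((γ t - γ s) * conj (T t)).im < ((γ t - γ t) * conj (T t)).im := key
    rw [h0] at key'
    exact key'
  have hz0 : z ≠ 0 := by
    intro h
    rw [h] at hz_im
    simp at hz_im
  -- `z` is close to `t - s`
  have hz_close : ‖z - ((t - s : ℝ) : ℂ)‖ ≤ ρ * (t - s) := by
    have hder : ∀ x ∈ Set.Icc s t, HasDerivWithinAt (fun x : ℝ => γ x - (x : ℂ) * T s)
        (T x - T s) (Set.Icc s t) x := by
      intro x _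
      have h1 : HasDerivAt (fun x : ℝ => ((x : ℝ) : ℂ)) 1 x := by
        simpa using (hasDerivAt_id x).ofReal_comp
      have h2 := (hγ x).sub (h1.mul_const (T s))
      rw [one_mul] at h2
      exact h2.hasDerivWithinAt
    have hbd : ∀ x ∈ Set.Icc s t, ‖T x - T s‖ ≤ ρ := by
      intro x hx
      exact (hdiff x s (by linarith [hx.1]) (by linarith [hx.2]) hs (by linarith)).le
    have hmv := Convex.norm_image_sub_le_of_norm_hasDerivWithin_le hder hbd (convex_Icc s t)
      (Set.left_mem_Icc.2 hst.le) (Set.right_mem_Icc.2 hst.le)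
    have e1 : z - ((t - s : ℝ) : ℂ)
        = ((γ t - (t : ℂ) * T s) - (γ s - (s : ℂ) * T s)) * conj (T s) := by
      have := mul_conj_one hT1 s
      rw [hz]
      push_cast
      linear_combination ((t : ℂ) - s) * this
    rw [e1, norm_mul, RCLike.norm_conj, hT1 s, mul_one]
    have e2 : ‖t - s‖ = t - s := by
      rw [Real.norm_eq_abs, abs_of_pos hts]
    rw [e2] at hmv
    exact hmv
  -- the angle at `s`
  have hargz : arg z < η := by
    have hu : arg (((t - s)⁻¹ : ℝ) * z) = arg z := Complex.arg_real_mul z (inv_pos.2 hts)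
    have hdist : dist ((((t - s)⁻¹ : ℝ) : ℂ) * z) 1 < ρ₀ := by
      rw [dist_eq_norm]
      have e1 : (((t - s)⁻¹ : ℝ) : ℂ) * z - 1
          = (((t - s)⁻¹ : ℝ) : ℂ) * (z - ((t - s : ℝ) : ℂ)) := by
        have hne : ((t - s : ℝ) : ℂ) ≠ 0 := by
          exact_mod_cast hts.ne'
        push_cast
        push_cast at hne
        field_simp
      rw [e1, norm_mul, Complex.norm_real, Real.norm_eq_abs, abs_of_pos (inv_pos.2 hts)]
      calc (t - s)⁻¹ * ‖z - ((t - s : ℝ) : ℂ)‖ ≤ (t - s)⁻¹ * (ρ * (t - s)) :=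
            mul_le_mul_of_nonneg_left hz_close (inv_pos.2 hts).le
        _ = ρ := by field_simp
        _ < ρ₀ := hρ0
    have := harg hdist
    rw [hu, Complex.arg_one, Real.dist_eq, sub_zero] at this
    exact (abs_lt.1 this).2
  have hargz_pos : 0 < arg z := by
    rcases (Complex.arg_nonneg_iff.2 hz_im.le).lt_or_eq with h | h
    · exact h
    · exfalso
      have := (Complex.arg_eq_zero_iff.1 h.symm).2
      linarith
  have hargw_neg : arg w < 0 := Complex.arg_neg_iff.2 hw_im
  have hnorm : ‖w‖ = ‖z‖ := by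
    rw [hw, hz, norm_mul, norm_mul, RCLike.norm_conj, RCLike.norm_conj, hT1, hT1]
  have hzpos : 0 < ‖z‖ := norm_pos_iff.2 hz0
  -- the billiard relation
  have eq1 : γ t = γ s + (‖z‖ : ℂ) * (T s * exp (arg z * I)) := by
    have e : (‖z‖ : ℂ) * (T s * exp (arg z * I)) = T s * z := by
      rw [← Complex.norm_mul_exp_arg_mul_I z]
      simp only [Complex.norm_mul, Complex.norm_exp_ofReal_mul_I, mul_one, Complex.norm_real]
      have hh : arg ((‖z‖ : ℂ) * exp (arg z * I)) = arg z := by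
        rw [Complex.norm_mul_exp_arg_mul_I]
      rw [Real.norm_eq_abs, abs_of_nonneg (norm_nonneg z), hh]
      ring
    rw [e, hz]
    have := mul_conj_one hT1 s
    linear_combination (-(γ t) + γ s) * this
  have eq2 : T s * exp (arg z * I) = T t * exp (-(((-arg w : ℝ) : ℂ) * I)) := by
    have ez : (‖z‖ : ℂ) * (T s * exp (arg z * I)) = γ t - γ s := by
      rw [eq1]; ring
    have ew : (‖z‖ : ℂ) * (T t * exp (-(((-arg w : ℝ) : ℂ) * I))) = γ t - γ s := by
      have e : -(((-arg w : ℝ) : ℂ) * I) = (arg w : ℂ) * I := by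
        push_cast; ring
      rw [e, ← hnorm]
      have e' : (‖w‖ : ℂ) * (T t * exp (arg w * I)) = T t * ((‖w‖ : ℂ) * exp (arg w * I)) := by
        ring
      rw [e', Complex.norm_mul_exp_arg_mul_I, hw]
      have := mul_conj_one hT1 t
      linear_combination (γ t - γ s) * this
    have hne : (‖z‖ : ℂ) ≠ 0 := by
      exact_mod_cast hzpos.ne'
    exact mul_left_cancel₀ hne (ez.trans ew.symm)
  have hang : -arg w = arg z :=
    hbill s t (arg z) (-arg w) ‖z‖ hargz_pos hargz (by linarith)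
      (by linarith [Complex.neg_pi_lt_arg w]) hzpos eq1 eq2
  refine ⟨?_, hz_im⟩
  -- `w = conj z`
  have e1 : w = (‖z‖ : ℂ) * exp (-(arg z * I)) := by
    conv_lhs => rw [← Complex.norm_mul_exp_arg_mul_I w]
    rw [hnorm]
    have : ((arg w : ℝ) : ℂ) = -((arg z : ℝ) : ℂ) := by
      rw [← hang]; push_cast; ring
    rw [this]
    congr 2
    ring
  have e2 : conj z = (‖z‖ : ℂ) * exp (-(arg z * I)) := by
    conv_lhs => rw [← Complex.norm_mul_exp_arg_mul_I z]
    rw [map_mul, Complex.conj_ofReal, ← Complex.exp_conj, map_mul, Complex.conj_ofReal,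
      Complex.conj_I]
    congr 2
    ring
  rw [e1, e2]

/-- From the equal-angle property on a window, the curvature takes equal values at any two
points of the window. -/
theorem curv_eq (hγ : ∀ s, HasDerivAt γ (T s) s) (hT1 : ∀ s, ‖T s‖ = 1)
    (hT : ∀ s, HasDerivAt T (κ s * I * T s) s) {s₀ ε : ℝ}
    (hpair : ∀ s t : ℝ, s₀ - ε < s → s < t → t < s₀ + ε →
      (γ t - γ s) * conj (T t) = conj ((γ t - γ s) * conj (T s)) ∧
      0 < ((γ t - γ s) * conj (T s)).im)
    {s t : ℝ} (hs : s₀ - ε < s) (hst : s < t) (ht : t < s₀ + ε) : κ s = κ t := by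
  obtain ⟨hE, hzim⟩ := hpair s t hs hst ht
  -- derivative in the second variable
  have hD1 : HasDerivAt (fun x => (γ x - γ s) * conj (T x) - conj ((γ x - γ s) * conj (T s)))
      ((T t * conj (T t) + (γ t - γ s) * conj (κ t * I * T t)) - conj (T t * conj (T s))) t := by
    have h1 := ((hγ t).sub_const (γ s)).mul (hasDerivAt_conj (hT t))
    have h2 := hasDerivAt_conj (((hγ t).sub_const (γ s)).mul_const (conj (T s)))
    exact h1.sub h2
  have hev1 : (fun x => (γ x - γ s) * conj (T x) - conj ((γ x - γ s) * conj (T s)))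
      =ᶠ[𝓝 t] fun _ => 0 := by
    have hmem : Set.Ioo s (s₀ + ε) ∈ 𝓝 t := Ioo_mem_nhds hst ht
    filter_upwards [hmem] with x hx
    rw [sub_eq_zero]
    exact (hpair s x hs hx.1 hx.2).1
  have hz1 := hD1.unique ((hasDerivAt_const t (0 : ℂ)).congr_of_eventuallyEq hev1)
  -- derivative in the first variable
  have hD2 : HasDerivAt (fun x => (γ t - γ x) * conj (T t) - conj ((γ t - γ x) * conj (T x)))
      ((-T s) * conj (T t)
        - conj ((-T s) * conj (T s) + (γ t - γ s) * conj (κ s * I * T s))) s := by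
    have h1 := ((hγ s).const_sub (γ t)).mul_const (conj (T t))
    have h2 := hasDerivAt_conj (((hγ s).const_sub (γ t)).mul (hasDerivAt_conj (hT s)))
    exact h1.sub h2
  have hev2 : (fun x => (γ t - γ x) * conj (T t) - conj ((γ t - γ x) * conj (T x)))
      =ᶠ[𝓝 s] fun _ => 0 := by
    have hmem : Set.Ioo (s₀ - ε) t ∈ 𝓝 s := Ioo_mem_nhds hs hst
    filter_upwards [hmem] with x hx
    rw [sub_eq_zero]
    exact (hpair x t hx.1 hx.2 ht).1
  have hz2 := hD2.unique ((hasDerivAt_const s (0 : ℂ)).congr_of_eventuallyEq hev2)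
  have hTt := mul_conj_one hT1 t
  have hTs := mul_conj_one hT1 s
  simp only [map_mul, map_add, map_sub, map_neg, Complex.conj_ofReal, Complex.conj_I,
    Complex.conj_conj] at hz1 hz2 hE
  have hG : ((κ t : ℂ) - κ s) * I * ((conj (γ t) - conj (γ s)) * T s) = 0 := by
    linear_combination (-1 : ℂ) * hz1 + hz2 - (κ t : ℂ) * I * hE + hTt - hTs
  have hne : (conj (γ t) - conj (γ s)) * T s ≠ 0 := by
    intro h0
    have : ((γ t - γ s) * conj (T s)) = conj ((conj (γ t) - conj (γ s)) * T s) := by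
      simp only [map_mul, map_sub, Complex.conj_conj]
    rw [this, h0] at hzim
    simp at hzim
  have h3 : ((κ t : ℂ) - κ s) = 0 := by
    rcases mul_eq_zero.1 hG with h | h
    · rcases mul_eq_zero.1 h with h' | h'
      · exact h'
      · exact absurd h' Complex.I_ne_zero
    · exact absurd h hne
  have h4 : (κ t : ℂ) = κ s := sub_eq_zero.1 h3
  exact (Complex.ofReal_injective h4).symm

/-- The curvature is constant. -/
theorem curv_const (hγ : ∀ s, HasDerivAt γ (T s) s) (hT1 : ∀ s, ‖T s‖ = 1)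
    (hT : ∀ s, HasDerivAt T (κ s * I * T s) s) (hκ : ∀ s, 0 < κ s)
    {η : ℝ} (hη : 0 < η)
    (hbill : ∀ s s' δ δ' ℓ : ℝ, 0 < δ → δ < η → 0 < δ' → δ' < Real.pi → 0 < ℓ →
      γ s' = γ s + ℓ * (T s * exp (δ * I)) →
      T s * exp (δ * I) = T s' * exp (-(δ' * I)) → δ' = δ) (s : ℝ) : κ s = κ 0 := by
  have hloc : IsLocallyConstant κ := by
    rw [IsLocallyConstant.iff_eventually_eq]
    intro x
    obtain ⟨ε, hε, hpair⟩ := pair_conj hγ hT1 hT hκ hη hbill x
    have hmem : Set.Ioo (x - ε) (x + ε) ∈ 𝓝 x := Ioo_mem_nhds (by linarith) (by linarith)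
    filter_upwards [hmem] with y hy
    rcases lt_trichotomy y x with h | h | h
    · exact curv_eq hγ hT1 hT hpair hy.1 h (by linarith)
    · rw [h]
    · exact (curv_eq hγ hT1 hT hpair (by linarith) h hy.2).symm
  exact hloc.apply_eq_of_preconnectedSpace s 0

/-- The curve is the counterclockwise arclength parametrization of a circle. -/
theorem on_circle (hγ : ∀ s, HasDerivAt γ (T s) s) (hT1 : ∀ s, ‖T s‖ = 1)
    (hT : ∀ s, HasDerivAt T (κ s * I * T s) s) (hκ : ∀ s, 0 < κ s)
    {η : ℝ} (hη : 0 < η)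
    (hbill : ∀ s s' δ δ' ℓ : ℝ, 0 < δ → δ < η → 0 < δ' → δ' < Real.pi → 0 < ℓ →
      γ s' = γ s + ℓ * (T s * exp (δ * I)) →
      T s * exp (δ * I) = T s' * exp (-(δ' * I)) → δ' = δ) :
    ∃ (c : ℂ) (R : ℝ), 0 < R ∧ (∀ s, κ s = 1 / R) ∧ (∀ s, ‖γ s - c‖ = R) ∧
      ∀ s, γ s = c + R * (-I * T 0) * exp ((s / R : ℝ) * I) := by
  have hk := curv_const hγ hT1 hT hκ hη hbill
  have hK : 0 < κ 0 := hκ 0
  have hKne : ((κ 0 : ℝ) : ℂ) ≠ 0 := by
    exact_mod_cast hK.ne'
  have hC : ∀ s, HasDerivAt (fun x => γ x + (I / (κ 0 : ℂ)) * T x) 0 s := by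
    intro s
    have h := (hγ s).add ((hT s).const_mul (I / (κ 0 : ℂ)))
    have e : T s + I / (κ 0 : ℂ) * ((κ s : ℂ) * I * T s) = 0 := by
      rw [hk s]
      have : I / (κ 0 : ℂ) * ((κ 0 : ℂ) * I * T s) = (I * I) * T s := by
        field_simp
      rw [this, Complex.I_mul_I]
      ring
    rwa [e] at h
  have hconst : ∀ s, γ s + (I / (κ 0 : ℂ)) * T s = γ 0 + (I / (κ 0 : ℂ)) * T 0 := fun s =>
    is_const_of_deriv_eq_zero (fun x => (hC x).differentiableAt) (fun x => (hC x).deriv) s 0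
  -- the tangent rotates uniformly
  have hrot : ∀ s, HasDerivAt (fun x : ℝ => T x * exp (-((κ 0 * x : ℝ) : ℂ) * I)) 0 s := by
    intro s
    have h1 : HasDerivAt (fun x : ℝ => -((κ 0 * x : ℝ) : ℂ) * I) (-(κ 0 : ℂ) * I) s := by
      have h0 : HasDerivAt (fun x : ℝ => ((κ 0 * x : ℝ) : ℂ)) ((κ 0 : ℝ) : ℂ) s := by
        have := ((hasDerivAt_id s).const_mul (κ 0)).ofReal_comp
        simpa using this
      have := (h0.neg).mul_const I
      exact this
    have h2 := (hT s).mul h1.cexp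
    have e : (κ s : ℂ) * I * T s * exp (-((κ 0 * s : ℝ) : ℂ) * I)
        + T s * (exp (-((κ 0 * s : ℝ) : ℂ) * I) * (-(κ 0 : ℂ) * I)) = 0 := by
      rw [hk s]; ring
    rwa [e] at h2
  have hrotc : ∀ s, T s * exp (-((κ 0 * s : ℝ) : ℂ) * I) = T 0 := by
    intro s
    have := is_const_of_deriv_eq_zero (fun x => (hrot x).differentiableAt)
      (fun x => (hrot x).deriv) s 0
    simpa using this
  have hTform : ∀ s, T s = T 0 * exp (((κ 0 * s : ℝ) : ℂ) * I) := by
    intro s
    rw [← hrotc s, mul_assoc, ← Complex.exp_add]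
    have : -((κ 0 * s : ℝ) : ℂ) * I + ((κ 0 * s : ℝ) : ℂ) * I = 0 := by ring
    rw [this, Complex.exp_zero, mul_one]
  refine ⟨γ 0 + (I / (κ 0 : ℂ)) * T 0, 1 / κ 0, by positivity, fun s => ?_, fun s => ?_,
    fun s => ?_⟩
  · rw [hk s]; field_simp
  · have : γ s - (γ 0 + (I / (κ 0 : ℂ)) * T 0) = -((I / (κ 0 : ℂ)) * T s) := by
      rw [← hconst s]; ring
    rw [this, norm_neg, norm_mul, hT1 s, mul_one, norm_div, Complex.norm_I, Complex.norm_real,
      Real.norm_eq_abs, abs_of_pos hK]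
  · have h1 : γ s = γ 0 + (I / (κ 0 : ℂ)) * T 0 - (I / (κ 0 : ℂ)) * T s := by
      rw [← hconst s]; ring
    have h2 : ((s / (1 / κ 0) : ℝ) : ℂ) = ((κ 0 * s : ℝ) : ℂ) := by
      congr 1
      field_simp
    rw [h2, h1, hTform s]
    push_cast
    field_simp
    ring

end

end Vale.Agent.Lib.P097.H96
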